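import Vale.Agent.P283B.LS.Ot
import Vale.Agent.P283B.LL.St

/-!
# P283B, block RD: places with independent initial forms are monomial
-/

set_option linter.unusedVariables false
set_option linter.unusedSectionVars false

open Set MvPolynomial
open Vale.Agent.P285N.Brep (jac Fr)
open Vale.Agent.P297Z

noncomputable section

namespace Vale.Agent.P283B.Rd

open P287D Wp Cb Ls

variable {K L A : Type} [Field K] [Field L] [Field A] [Algebra ℂ K] [Algebra ℂ L] [Algebra ℂ A]
  {σ τ : Type} [Fintype σ] [Fintype τ] {n : ℕ}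

theorem cl_root {S : Set L} {x : L} {m : ℤ} (m0 : m ≠ 0) (h : x ^ m ∈ Gm.Cl S) : x ∈ Gm.Cl S := by
  obtain ⟨j, rfl | rfl⟩ := Int.eq_nat_or_neg m
  · exact Gm.mem_Cl.2 (.of_pow (n := j) (by omega) (Gm.mem_Cl.1 (zpow_natCast x j ▸ h)))
  · rw [zpow_neg, inv_mem_iff, zpow_natCast] at h
    exact Gm.mem_Cl.2 (.of_pow (n := j) (by omega) (Gm.mem_Cl.1 h))

/-- a monomial change of coordinates -/
theorem kq_log (hL : FF L n) (c : Fintype.card σ = n) {z y : σ → L} (hz : AlgebraicIndependent ℂ z)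
    (hy : AlgebraicIndependent ℂ y) (M : σ → σ → ℂ) (h : ∀ (D : Derivation ℂ L L) k,
      D (y k) = y k * ∑ i, algebraMap ℂ L (M i k) * (D (z i) / z i)) :
    kq y - ∑ i, dv (y i) = kq z - ∑ i, dv (z i) := by
  classical
  let b := (Fintype.equivFinOfCardEq c).symm
  obtain ⟨D, hD⟩ := fr_of hL (hz.comp _ b.injective)
  have du : ∀ i k, D i (z (b k)) = if i = k then 1 else 0 := hD.dual
  have e : jac D (y ∘ b) = (∏ i, (z (b i))⁻¹) * ((∏ i, y (b i)) *
      algebraMap ℂ L (Matrix.of fun i k => M (b i) (b k)).det) := by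
    rw [RingHom.map_det, ← Matrix.det_mul_row, ← Matrix.det_mul_column, jac]
    congr 1
    ext i k
    simp only [Matrix.of_apply, Function.comp_apply, h, ← b.sum_comp, du, RingHom.mapMatrix_apply,
      Matrix.map_apply]
    rw [Finset.sum_eq_single i (fun l _ hl => by simp [hl.symm]) (by simp)]
    simp only [if_true]
    ring
  have j0 := (jac_ne_iff hD _).2 (hy.comp _ b.injective)
  have j1 := e ▸ j0
  have j2 := right_ne_zero_of_mul j1
  rw [kq_eq hL b, kq_eq hL b, kap_chg hD j0, e, dv_mul (left_ne_zero_of_mul j1) j2,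
    dv_mul (left_ne_zero_of_mul j2) (right_ne_zero_of_mul j2), dv_const,
    dv_prod _ fun i _ => inv_ne_zero (hz.ne_zero _), dv_prod _ fun i _ => hy.ne_zero _,
    ← b.sum_comp, ← b.sum_comp]
  simp only [dv_inv, Finset.sum_neg_distrib]
  abel

/-- Laurent polynomials at a monomial place -/
theorem lind {E : Pl K} {β : σ → K} (h : Lz.Ind E β) (b0 : ∀ i, β i ≠ 0) {α : Type} (S : Finset α)
    (e : α → σ → ℤ) (inj : InjOn e S) (c : α → ℂ) {a : α} (ha : a ∈ S) (c0 : c a ≠ 0)
    (o : ∑ i, e a i * E.ord (β i) = 0) :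
    ¬ Mx E (∑ x ∈ S, algebraMap ℂ K (c x) * ∏ i, β i ^ e x i) := by
  classical
  let M : ℕ := S.sup fun x => Finset.univ.sup fun i => (e x i).natAbs
  let f : α → σ →₀ ℕ := fun x => Finsupp.equivFunOnFinite.symm fun i => (e x i + M).toNat
  have hf : ∀ x ∈ S, ∀ i, (f x i : ℤ) = e x i + M := fun x hx i => by
    have : (e x i).natAbs ≤ M := (Finset.le_sup (f := fun i => (e x i).natAbs)
      (Finset.mem_univ i)).trans (Finset.le_sup (f := fun x => Finset.univ.sup fun i =>
        (e x i).natAbs) hx)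
    exact Int.toNat_of_nonneg (by omega)
  obtain ⟨u, v⟩ := h (∑ x ∈ S, monomial (f x) (c x)) (f a) (by
    rw [mem_support_iff, coeff_sum, Finset.sum_eq_single_of_mem a ha fun x hx ne => by
      rw [coeff_monomial, if_neg fun q => ne (inj hx ha (funext fun i => by
        have := hf x hx i
        rw [q, hf a ha] at this
        omega))]]
    simpa using c0)
  have q : aeval β (∑ x ∈ S, monomial (f x) (c x)) =
      (∏ i, β i ^ (M : ℤ)) * ∑ x ∈ S, algebraMap ℂ K (c x) * ∏ i, β i ^ e x i := by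
    rw [map_sum, Finset.mul_sum]
    refine Finset.sum_congr rfl fun x hx => ?_
    rw [aeval_monomial, Finsupp.prod_fintype _ _ fun _ => pow_zero _, mul_left_comm,
      ← Finset.prod_mul_distrib]
    congr 2
    funext i
    rw [← zpow_natCast, hf x hx, zpow_add₀ (b0 i), mul_comm]
  rw [q] at u v
  rw [Pl.ord_mul _ (left_ne_zero_of_mul u) (right_ne_zero_of_mul u), E.ord_prod _ fun i _ =>
    zpow_ne_zero _ (b0 i), Finsupp.sum_fintype _ _ fun _ => by simp] at v
  simp only [hf a ha, add_mul, Finset.sum_add_distrib, o, Pl.ord_zpow] at v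
  exact fun m => (mx_iff.1 m).elim (right_ne_zero_of_mul u) (by omega)

/-- **MON** -/
theorem mon (hK : FF K n) {z : σ → L} (hz : Rf z) (φ : L →ₐ[ℂ] K) {E : Pl K}
    (h : Lz.Ind E fun b => φ (z b)) :
    pb (φ : L →+* K) (kq z + 1) E = ∑ b, (E.ord (φ (z b)) : ℝ) := by
  classical
  refine pb_ap (φ := (φ : L →+* K)) ((hK.ok φ E).imp_right fun ⟨v, l⟩ => ⟨v, l, ?_⟩)
  have hL := Ot.rf_ff hz
  have z0 : ∀ b, φ (z b) ≠ 0 := fun b => (map_ne_zero φ).2 (hz.ind.ne_zero b)
  obtain ⟨b₀, w0⟩ : ∃ b, E.ord (φ (z b)) ≠ 0 := by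
    by_contra! w
    refine l.not_trv (Ot.rf_trv hz φ (fun b => mem_ord (w b).ge) fun p m => by_contra fun p0 => ?_)
    obtain ⟨d, hd⟩ := support_nonempty.2 p0
    obtain ⟨a, b⟩ := h p d hd
    rw [comp_aeval_apply _ φ] at m
    simp only [w, mul_zero, Finsupp.sum_fun_zero] at b
    exact (mx_iff.1 m).elim a b.not_gt
  let w : σ → ℤ := fun b => E.ord (φ (z b))
  let y : σ → L := fun b => if b = b₀ then z b₀ ^ w b₀ else z b ^ w b₀ * z b₀ ^ (-w b)
  have y0 : y b₀ = z b₀ ^ w b₀ := if_pos rfl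
  have y1 : ∀ b, b ≠ b₀ → y b = z b ^ w b₀ * z b₀ ^ (-w b) := fun b e => if_neg e
  have c0 : z b₀ ∈ Gm.Cl (range y) := cl_root w0 (y0 ▸ Gm.sub_Cl ⟨_, rfl⟩)
  have hy : AlgebraicIndependent ℂ y := Gm.ind_of_cl hL (fun x => Gm.cl_le (by
    rintro _ ⟨b, rfl⟩
    by_cases e : b = b₀
    · exact e ▸ c0
    · refine cl_root w0 ?_
      have := mul_mem (Gm.sub_Cl (S := range y) ⟨b, rfl⟩) (zpow_mem c0 (w b))
      rwa [y1 b e, mul_assoc, ← zpow_add₀ (hz.ind.ne_zero _), neg_add_cancel, zpow_zero,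
        mul_one] at this) (Gm.cl_basis hL hz.ind le_rfl x)) le_rfl
  have lg : ∀ (D : Derivation ℂ L L) b (m : ℤ), D (z b ^ m) = z b ^ m * (m * (D (z b) / z b)) :=
    fun D b m => by
      have := hz.ind.ne_zero b
      rw [Derivation.leibniz_zpow, zpow_sub_one₀ this, zsmul_eq_mul, smul_eq_mul]
      field_simp
  have e := congrFun (kq_log hL rfl hz.ind hy (fun i k => (if i = k then (w b₀ : ℂ) else 0) +
    if i = b₀ ∧ k ≠ b₀ then -(w k : ℂ) else 0) fun D k => by
      simp only [map_add, add_mul, Finset.sum_add_distrib, apply_ite (algebraMap ℂ L), ite_mul,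
        map_zero, zero_mul, Finset.sum_ite_eq', Finset.mem_univ, if_true, map_neg, map_intCast]
      by_cases e : k = b₀
      · simp [e, y0, lg]
      · simp only [e, ne_eq, not_false_iff, and_true, Finset.sum_ite_eq', Finset.mem_univ, if_true]
        rw [y1 k e, Derivation.leibniz, lg, lg, smul_eq_mul, smul_eq_mul, Int.cast_neg]
        ring) v
  have o : ∀ b, b ≠ b₀ → E.ord (φ (y b)) = 0 := fun b e => by
    rw [y1 b e, map_mul, map_zpow₀, map_zpow₀, Pl.ord_mul _ (zpow_ne_zero _ (z0 _))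
      (zpow_ne_zero _ (z0 _)), Pl.ord_zpow, Pl.ord_zpow]
    ring
  have m : ∀ b, b ≠ b₀ → y b ∈ v.ring := fun b e => (l _).2 (mem_ord (o b e).ge)
  let q := Equiv.optionSubtypeNe b₀
  have ap : Ap v y := ap_of hL rfl q ((l.ord_pos_iff _).1 (by
    change 0 < E.ord (φ (y b₀))
    rw [y0, map_zpow₀, Pl.ord_zpow]
    exact mul_self_pos.2 w0)) (fun b => m _ b.2) (algebraicIndependent_iff.2 fun p hp => by
      by_contra p0
      obtain ⟨d, hd⟩ := support_nonempty.2 p0
      let ex : ({b // b ≠ b₀} →₀ ℕ) → σ → ℤ := fun d i =>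
        (q.symm i).elim (∑ b, -w b.1 * d b) fun b => w b₀ * d b
      have x0 : ∀ d, ex d (q none) = ∑ b, -w b.1 * d b := fun d => by
        simp only [ex, q.symm_apply_apply]; rfl
      have x1 : ∀ d b, ex d (q (some b)) = w b₀ * d b := fun d b => by
        simp only [ex, q.symm_apply_apply]; rfl
      have pr : ∀ d, ∏ i, φ (z i) ^ ex d i = ∏ b : {b // b ≠ b₀}, φ (y b) ^ d b := fun d => by
        rw [← q.prod_comp, Fintype.prod_option, x0]
        simp only [x1]
        induction (Finset.univ : Finset {b // b ≠ b₀}) using Finset.induction_on with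
        | empty => simp
        | insert a s ha ih =>
          rw [Finset.sum_insert ha, Finset.prod_insert ha, Finset.prod_insert ha, zpow_add₀ (z0 _),
            mul_mul_mul_comm, ih, y1 _ a.2, map_mul, map_zpow₀, map_zpow₀, mul_pow, ← zpow_natCast,
            ← zpow_natCast, ← zpow_mul, ← zpow_mul, mul_comm (φ (z (q none)) ^ _)]
          rfl
      refine lind h z0 p.support ex (fun a _ b _ e => Finsupp.ext fun i => ?_) p.coeff hd
        (mem_support_iff.1 hd) ?_ ?_
      · have := congrFun e (q (some i))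
        rw [x1, x1] at this
        exact_mod_cast mul_left_cancel₀ w0 this
      · rw [← q.sum_comp, Fintype.sum_option, x0, Finset.sum_mul, ← Finset.sum_add_distrib]
        refine Finset.sum_eq_zero fun b _ => ?_
        rw [x1]
        change -w b * _ * w b₀ + w b₀ * _ * w b = 0
        ring
      · have m' : ∀ b : {b // b ≠ b₀}, y b ∈ v.ring := fun b => m _ b.2
        have a := (rd_aeval m' p).trans hp
        have a' : aeval (fun b : {b // b ≠ b₀} => y b) p ∈ v.ring :=
          adj_mem (S := range fun b : {b // b ≠ b₀} => y b) (forall_mem_range.2 m')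
            (by rw [Algebra.adjoin_range_eq_range_aeval]; exact ⟨p, rfl⟩)
        have : Mx E (φ (aeval (fun b : {b // b ≠ b₀} => y b) p)) :=
          mx_iff.2 ((mx_iff.1 ((rd_eq_zero a').1 a)).imp (fun e => by rw [e, map_zero])
            (l.ord_pos_iff _).2)
        rw [comp_aeval_apply _ φ, aeval_def, eval₂_eq'] at this
        simpa only [pr] using this)
  rw [Ap] at ap ⊢
  simp only [Pi.sub_apply, Finset.sum_apply, dv_apply] at e
  linarith

end Vale.Agent.P283B.Rd
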