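import Vale.Agent.P283B.RD.St
import Vale.Agent.P283B.LS.DiagH
import Vale.Agent.P287D.Va.Alg

/-!
# P283B, block RD: a function from the fibre square (leaf SSQ)
-/

set_option linter.unusedVariables false
set_option linter.unusedSectionVars false

open Set
open Vale.Agent.P297Z Vale.Agent.P287D Vale.Agent.P287D.Cb

noncomputable section

namespace Vale.Agent.P283B.Rd

open Wp Ls Lcb

namespace Sq

variable {F E κ : Type} [Field F] [Algebra ℂ F] [Field E] [Algebra ℂ E] [Fintype κ]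
  {ψ : κ → F →ₐ[ℂ] E} {n : ℕ}

theorem ex_min (P : Pl F) {a : κ → F} (h : ∑ l, a l ≠ 0) :
    ∃ l, a l ≠ 0 ∧ P.ord (a l) ≤ P.ord (∑ l, a l) := by
  by_contra! z
  have := Gm.mx_sum (P := P) Finset.univ (f := fun l => a l / ∑ l, a l) fun l _ => by
    by_cases a0 : a l = 0
    · simp [a0, mx_iff]
    · rw [mx_iff, Pl.ord_div _ a0 h]
      exact .inr (sub_pos.2 (z l a0))
  rw [← Finset.sum_div, div_self h, mx_iff] at this
  simp at this

variable (ψ) in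
/-- the sum of the pull backs -/
def sp : BD F →+ BD E := .mk' (fun G => ∑ j, pb (ψ j : F →+* E) G) fun _ _ => by
  simp only [pb_add, Finset.sum_add_distrib]

theorem sp_apply (G : BD F) (w : Pl E) : sp ψ G w = ∑ j, pb (ψ j : F →+* E) G w :=
  Finset.sum_apply _ _ _

theorem sp_smul (c : ℝ) (G : BD F) : sp ψ (c • G) = c • sp ψ G := by
  simp only [sp, AddMonoidHom.mk'_apply, pb_smul, Finset.smul_sum]

variable (hE : FF E n)
include hE

theorem sp_prn {G : BD F} (h : G ∈ Prn F) : sp ψ G ∈ Prn E :=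
  sum_mem fun j _ => (hE.ok (ψ j)).prn h

theorem sp_nef {G : BD F} (h : Nef G) : Nef (sp ψ G) :=
  Nef.sum _ fun j _ => (hE.ok (ψ j)).nef h

theorem sp_big {G : BD F} (h : Big G) {τ : Type} [Fintype τ] (c : Fintype.card τ = n) {Y : τ → E}
    (hY : AlgebraicIndependent ℂ Y) (k : ∀ i, ∃ j f, Y i = ψ j f) : Big (sp ψ G) := by
  classical
  have e : ∀ s : Finset κ, Eff (∑ j ∈ s, pb (ψ j : F →+* E) G) := fun s =>
    Finset.sum_induction _ Eff (fun _ _ => Eff.add) (.of_nonneg le_rfl)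
      fun j _ => (hE.ok (ψ j)).eff h.eff
  refine (big_iff_fld (e _)).2 (eq_top_iff.2 fun x _ => (cld_fld _).of_le
    (IntermediateField.adjoin_le_iff.2 (range_subset_iff.2 fun i => ?_))
    (mem_algebraicClosure_iff.1 (Gm.cl_basis hE hY c.ge x)))
  obtain ⟨j, f, u⟩ := k i
  rw [u, ← Finset.add_sum_erase _ _ (Finset.mem_univ j)]
  exact fld_le_add (e _) ((hE.ok (ψ j)).mem_fld h.eff (h.fld_eq ▸ trivial))

theorem zr_iff {C : AddSubmonoid (BD F)} (h : ∀ G ∈ C, 0 ≤ G) (w : Pl E) :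
    Zr (C.map (sp ψ)) w ↔ ∀ j P, Lies (ψ j : F →+* E) w P → Zr C P := by
  refine ⟨fun z j P l G hG => ?_, ?_⟩
  · have := z _ ⟨G, hG, rfl⟩
    rw [sp_apply, Finset.sum_eq_zero_iff_of_nonneg fun j _ => pb_nonneg _ (h G hG) w] at this
    exact (mul_eq_zero.1 (l.pb G ▸ this j (Finset.mem_univ _))).resolve_left
      (Int.cast_pos.2 l.e_pos).ne'
  · rintro z _ ⟨G, hG, rfl⟩
    rw [sp_apply]
    exact Finset.sum_eq_zero fun j _ => (hE.ok (ψ j) w).elim (·.pb G) fun ⟨P, l⟩ => by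
      rw [l.pb, z j P l G hG, mul_zero]

end Sq

open Sq in
/-- **SSQ** -/
theorem ssq : SSQ := by
  intro ot n F _ _ hF L σ _ _ _ z φ Γ H C p E hz hH hC ⟨G, g0, g1, g2⟩ hp lo
  classical
  have hL := Bi.rf_ff hz rfl
  have okφ := hF.ok φ
  rcases isEmpty_or_nonempty σ with es | ⟨⟨b0⟩⟩
  · have t : ∀ P, Trv (φ : L →+* F) P := fun P => (okφ P).resolve_right fun ⟨v, _⟩ =>
      no_pl (Fintype.card_eq_zero (α := σ) ▸ hL) v
    exact ⟨1, one_ne_zero, by simp [(t E).pb], fun P _ => ⟨fun _ _ => one_mem _,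
      fun h => (h (t P)).elim⟩⟩
  have zi : AlgebraicIndependent ℂ fun b => φ (z b) := hz.ind.map' φ.injective
  obtain ⟨r, hr⟩ : ∃ r, n + 1 = r + Fintype.card σ := by
    have := zi.cardinalMk_le_trdeg
    rw [hF.trdeg, Cardinal.mk_fintype, Nat.cast_le] at this
    exact ⟨_, (Nat.sub_add_cancel this).symm⟩
  obtain ⟨x, hx⟩ := ext_ind zi r (by rw [hF.trdeg, hr])
  obtain ⟨y, hy, e0⟩ : ∃ y : σ ⊕ Fin r → F, AlgebraicIndependent ℂ y ∧
      ∀ b, φ (z b) = y (.inl b) := ⟨_, hx.comp _ (Equiv.sumComm _ _).injective, fun _ => rfl⟩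
  have cy : Fintype.card (σ ⊕ Fin r) = n + 1 := by simp [hr, add_comm]
  obtain ⟨K, _, _, φ', ψ, Y, B, δ, hK, hY, cm', hψ, hδ, d1, d3, d2, d4⟩ :=
    Ld.diagM L F σ (Fin r) 2 z y φ two_pos hL hz.ind hy (cy ▸ hF) e0
  have cm : ∀ j, (ψ j : F →+* K).comp (φ : L →+* F) = φ' := fun j => RingHom.ext (cm' j)
  obtain ⟨m, hm⟩ := Nat.exists_eq_succ_of_ne_zero
    (Fintype.card_pos_iff.2 ⟨(.inl b0 : σ ⊕ Fin r × Fin 2)⟩).ne'
  rw [hm] at hK
  have ok := fun j => hK.ok (ψ j)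
  have Yψ : ∀ i, ∃ j f, Y i = ψ j f := by
    rintro (b | ⟨i, j⟩)
    exacts [⟨0, _, (hψ 0 (.inl b)).symm⟩, ⟨j, _, (hψ j (.inr i)).symm⟩]
  obtain ⟨f₀, -, kf⟩ := kq_cn hK hm hY
  obtain ⟨f₁, -, kf₁⟩ := kq_cn hF cy hy
  obtain ⟨v, hv⟩ : ∃ v, Trv (φ : L →+* F) E ∨ Lies (φ : L →+* F) E v := by
    rcases okφ E with t | ⟨v, l⟩
    · obtain ⟨k, hk⟩ := Nat.exists_eq_succ_of_ne_zero (Fintype.card_pos_iff.2 ⟨b0⟩).ne'
      exact ⟨(On.exists_unit (hk ▸ hL) finite_empty).choose, .inl t⟩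
    · exact ⟨v, .inr l⟩
  obtain ⟨k, hk⟩ : ∃ k : ℤ, kq z v = k := kap_int _ v
  set Δ : BD K := sp ψ (Γ + dv f₁) - dv f₀ with hΔ
  have ds : ∀ u, ld (m + 1) Δ u = kq Y u + 1 - ∑ j, pb (ψ j : F →+* K) (kq y + 1) u +
      ∑ j, pb (ψ j : F →+* K) (ld (n + 1) Γ) u := fun u => by
    have : Γ + dv f₁ = kq y + 1 - ld (n + 1) Γ := funext fun P => by
      simp only [kf₁, ld, dsc, Pi.add_apply, Pi.sub_apply, Pi.one_apply]
      ring
    simp only [ld, dsc, hΔ, kf, this, Pi.sub_apply, Pi.add_apply, sp_apply, pb_sub,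
      Finset.sum_sub_distrib]
    ring
  have zr := zr_iff (ψ := ψ) hK fun G h => (hC G h).1
  have pr : sp ψ G - Δ - sp ψ (G - Γ) ∈ Prn K := by
    convert sub_mem (dv_mem_Prn f₀) (sp_prn (ψ := ψ) hK (dv_mem_Prn f₁)) using 1
    rw [hΔ, map_add, map_sub]
    abel
  have ps : ∀ u, Zr (C.map (sp ψ)) u → ∀ j, ¬ Trv (ψ j : F →+* K) u →
      0 < ∑ j, pb (ψ j : F →+* K) (ld (n + 1) Γ) u := fun u h j t => by
    have q : ∀ j P, Lies (ψ j : F →+* K) u P → 0 < pb (ψ j : F →+* K) (ld (n + 1) Γ) u :=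
      fun j P l => l.pb _ ▸ mul_pos (Int.cast_pos.2 l.e_pos) (lo P ((zr u).1 h j P l))
    obtain ⟨P, l⟩ := (ok j u).resolve_left t
    exact Finset.sum_pos' (fun j _ => (ok j u).elim (fun t => (t.pb _).ge) fun ⟨P, l⟩ =>
      (q j P l).le) ⟨j, Finset.mem_univ _, q j P l⟩
  have tr : ∀ u, (∀ j, Trv (ψ j : F →+* K) u) → ld (m + 1) Δ u = kq Y u + 1 := fun u t => by
    simp only [ds, fun j => (t j).pb, Finset.sum_const_zero, sub_zero, add_zero]
  obtain ⟨s, g, a, o1, o2, o3⟩ := ot m K hK L σ z φ' Δ (sp ψ H) (C.map (sp ψ)) p v (k + 1) hz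
    (sp_nef hK hH) (by
      rintro _ ⟨G, hG, rfl⟩
      obtain ⟨a, c, c0, b⟩ := hC G hG
      refine ⟨fun u => (Finset.sum_nonneg fun j _ => pb_nonneg _ a u).trans_eq
        (sp_apply (ψ := ψ) G u).symm, c, c0, ?_⟩
      rw [← sp_smul, ← map_sub]
      exact sp_prn hK b)
    ⟨_, ⟨G, g0, rfl⟩, (sp_nef hK g1).congr pr, (sp_big hK g2 hm hY Yψ).congr pr⟩ hp
    fun u h => by
      have d := d1 u
      refine ⟨fun t => ?_, fun l => ?_⟩
      · by_cases a : ∀ j, Trv (ψ j : F →+* K) u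
        · rw [tr u a]
          linarith [kq_nonneg hK hm (y := Y) (P := u) fun i =>
            let ⟨j, f, e⟩ := Yψ i; e ▸ a j f]
        obtain ⟨j, a⟩ := not_forall.1 a
        rw [t.pb] at d
        linarith [ds u, ps u h j a]
      · have := ps u h 0 fun t => l.not_trv (cm 0 ▸ t.comp _)
        rw [l.pb, Pi.add_apply, hk, Pi.one_apply] at d
        simp only [RingHom.coe_coe] at d
        push_cast at d ⊢
        linarith [ds u]
  have gB : ∀ l, g l ∈ B := fun l => d3 _ fun u t =>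
    (o1 l u ((zr u).2 fun j P l => (l.not_trv (t j)).elim)).imp_right fun h => by
      rwa [tr u t, (cm 0 ▸ (t 0).comp _ : Trv (φ' : L →+* K) u).pb, mul_zero, add_zero] at h
  obtain ⟨f, hf⟩ : ∃ f : Fin s → F, ∀ l, δ ⟨g l, gB l⟩ = f l := ⟨_, fun _ => rfl⟩
  choose pm pd using fun x : L => hδ 0 (φ x)
  have id1 : φ v.t ^ (k + 1) = ∑ l, f l * φ (a l) := by
    rw [← map_zpow₀, ← pd, show (⟨_, pm (v.t ^ (k + 1))⟩ : B) =
      ∑ l, ⟨g l, gB l⟩ * ⟨_, pm (a l)⟩ from Subtype.ext (by simp [cm', o3])]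
    simp only [map_sum, map_mul δ, hf, pd]
  have t0 : φ v.t ≠ 0 := (map_ne_zero φ).2 (Pb.t_ne v)
  obtain ⟨l, l0, l1⟩ := ex_min E (a := fun l => f l * φ (a l)) (id1 ▸ zpow_ne_zero _ t0)
  have f0 := left_ne_zero_of_mul l0
  have a0 := right_ne_zero_of_mul l0
  have g0 : g l ≠ 0 := fun e => f0 (by
    rw [← hf, show (⟨g l, gB l⟩ : B) = 0 from Subtype.ext e, map_zero])
  rw [← id1, Pl.ord_mul _ f0 a0, Pl.ord_zpow, ← @Int.cast_le ℝ] at l1
  push_cast at l1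
  refine ⟨f l, f0, ?_, fun P zP => ⟨fun t h => ?_, fun t => ?_⟩⟩
  · rcases hv with t | q
    · have := t.ord
      simp only [RingHom.coe_coe] at this
      simpa [this, t.pb] using l1
    · have h := (o2 l).resolve_left ((map_ne_zero φ).1 a0)
      have e1 : (0 : ℝ) < E.ord (φ v.t) := Int.cast_pos.2 q.e_pos
      have e2 : (E.ord (φ (a l)) : ℝ) = E.ord (φ v.t) * v.ord (a l) := by exact_mod_cast q.ord _
      rw [q.pb, q.pb, Pi.add_apply, Pi.one_apply]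
      rw [hk] at h ⊢
      simp only [RingHom.coe_coe]
      nlinarith [mul_pos e1 h]
  · refine hf l ▸ d4 P t _ fun j u a1 a2 a3 a4 => ?_
    have h1 := (o1 l u ((zr _).2 fun i Q q => by
      by_cases ij : i = j
      · exact a1.uniq (ij ▸ q) ▸ zP
      · exact (q.not_trv (a4 i ij)).elim)).resolve_left g0
    rw [ds, Finset.sum_eq_single j (fun i _ ij => (a4 i ij).pb _) (by simp),
      Finset.sum_eq_single j (fun i _ ij => (a4 i ij).pb _) (by simp), a1.pb, a1.pb, a3,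
      (cm j ▸ a1.comp_trv t : Trv (φ' : L →+* K) u).pb] at h1
    simp only [RingHom.coe_coe, a2, Int.cast_one, one_mul, Pi.add_apply, Pi.one_apply] at h1
    have : (-1 : ℤ) < u.ord (g l) := by exact_mod_cast (by linarith : (-1 : ℝ) < u.ord (g l))
    exact (Pl.ord_nonneg_iff _ g0).1 (by omega)
  · obtain ⟨u, l1, l2, l3⟩ := d2 P t
    obtain ⟨v', q⟩ := (okφ P).resolve_left t
    have e1 : (0 : ℤ) < P.ord (φ v'.t) := q.e_pos
    have o : ∀ j, u.ord (φ' v'.t) = u.ord (ψ j P.t) * P.ord (φ v'.t) := fun j =>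
      (congrArg u.ord (cm' j v'.t)).symm.trans ((l1 j).ord _)
    have eq : u.ord (ψ 1 P.t) = u.ord (ψ 0 P.t) := mul_right_cancel₀ e1.ne' ((o 1).symm.trans (o 0))
    have e2 : (0 : ℝ) < u.ord (ψ 0 P.t) := Int.cast_pos.2 (l1 _).e_pos
    have h := (o1 l u ((zr u).2 fun j Q l => (l1 j).uniq l ▸ zP)).resolve_left g0
    have h3 : (u.ord (g l) : ℝ) ≤ u.ord (ψ 0 P.t) * P.ord (f l) := by
      exact_mod_cast hf l ▸ l3 ⟨g l, gB l⟩ (hf l ▸ f0) _
    rw [ds, l2, ← cm 0, (ok _).pb_comp, (ok _).pb_comp, (l1 0).pb (pb _ _), (l1 0).pb (pb _ _),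
      Fin.sum_univ_two (f := fun j => pb _ (ld _ _) u), (l1 0).pb, (l1 1).pb] at h
    simp only [RingHom.coe_coe, eq] at h
    refine lt_of_mul_lt_mul_left ?_ e2.le
    push_cast at h
    linarith

end Vale.Agent.P283B.Rd
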