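import Vale.Agent.P283B.RD.Otp
import Vale.Agent.P283B.RD.Sq
import Vale.Agent.P283B.RD.Mon

/-!
# P283B, block RD: the bound for the radii
-/

set_option linter.unusedVariables false
set_option linter.unusedSectionVars false

open Set
open Vale.Agent.P297Z

noncomputable section

namespace Vale.Agent.P283B.Rd

open P287D Wp Cb Ls Lcb Lh

variable {K L : Type} [Field K] [Field L] [Algebra ℂ K] [Algebra ℂ L] {σ τ : Type} [Fintype σ]
  [Fintype τ] {n N q : ℕ} {z : σ → L} {Γ ψ : BD K} {s : Finset K} {R₀ E : Pl K} {g : K}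
  {c β μ t : ℝ}

theorem sq : SQ := ssq otp

theorem exists_pb (hz : ∀ b, z b ≠ 0) : ∃ p, Pb z p ∧ ∀ (φ : L →ₐ[ℂ] K) (P : Pl K) (m : ℝ),
    Ok (φ : L →+* K) → 0 ≤ m → (∀ b, 0 ≤ P.ord (φ (z b)) + m) → pb (φ : L →+* K) p P ≤ m := by
  classical
  let S : Finset L := insert 1 (Finset.univ.image z)
  have s1 : (1 : L) ∈ S := Finset.mem_insert_self _ _
  refine ⟨mx S, fun u => ⟨mx_nonneg s1 u, fun b => ?_⟩, fun φ P m ok m0 h => ?_⟩
  · rw [mx_apply]
    exact_mod_cast u.le_mz (s := S) (by simp [S]) (hz b)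
  · rcases ok P with t | ⟨u, l⟩
    · rwa [t.pb]
    · obtain ⟨f, hf, -, e⟩ := u.exists_mz ⟨1, s1, one_ne_zero⟩
      rw [l.pb, mx_apply, e, Int.cast_neg, mul_neg, ← Int.cast_mul, ← l.ord]
      rcases Finset.mem_insert.1 hf with rfl | hf
      · simpa using m0
      · obtain ⟨b, -, rfl⟩ := Finset.mem_image.1 hf
        exact neg_le_iff_add_nonneg'.2 (h b)

theorem pb_kq_ge (hz : Rf z) {φ : L →ₐ[ℂ] K} (ok : Ok (φ : L →+* K)) (P : Pl K) :
    ∑ b, (P.ord (φ (z b)) : ℝ) ≤ pb (φ : L →+* K) (kq z + 1) P := by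
  rcases ok P with t | ⟨u, l⟩
  · exact (pb_ap (.inl t)).ge
  · rw [l.pb]
    refine le_trans (Finset.sum_le_sum fun b _ => ?_) ((Finset.mul_sum _ _ _).ge.trans
      (mul_le_mul_of_nonneg_left (sum_le_kq (Ot.rf_ff hz) rfl hz.ind u)
        (Int.cast_nonneg l.e_pos.le)))
    rw [← Int.cast_mul, ← l.ord]
    exact le_rfl

/-- a function with bounded poles which sees the log discrepancy of the base -/
theorem radh (hK : FF K (n + 1)) (hz : Rf z) (φ : L →ₐ[ℂ] K) (hb : Big (mx s))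
    (h1 : Nef (c • mx s - Γ)) (d : Dsc (mx s) ψ) (k : ∀ P, Ov s R₀ P → 0 < ld (n + 1) Γ P)
    (k1 : Bdy n (mx s) Γ) (b0 : 0 < β) (p0 : ∀ P, Ov s R₀ P → 0 ≤ ψ P)
    (p1 : ∀ P, On n (mx s) P → Ov s R₀ P → ψ P = 0 ∨ β ≤ ψ P) (m0 : 0 ≤ μ)
    (hm : ∀ b P, Ov s R₀ P → 0 ≤ P.ord (φ (z b)) + μ * ψ P) (hE : Ov s R₀ E) :
    ∃ h : K, h ≠ 0 ∧ (E.ord h : ℝ) ≤ 2 * pb (φ : L →+* K) (kq z + 1) E +
      Fintype.card σ * (μ * ψ E) ∧ ∀ P, Ov s R₀ P →
        0 ≤ P.ord h + (2 * Fintype.card σ * μ + 2 / β) * ψ P ∧ (¬ Trv (φ : L →+* K) P →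
          pb (φ : L →+* K) (kq z + 1) P <
            2 * ld (n + 1) Γ P + Fintype.card σ * (μ * ψ P) + P.ord h) := by
  obtain ⟨p, hp, up⟩ := exists_pb (K := K) hz.ind.ne_zero
  have ok := hK.ok φ
  have c0 : (0 : ℝ) ≤ Fintype.card σ := Nat.cast_nonneg _
  have u : ∀ P, Ov s R₀ P → Fintype.card σ * pb (φ : L →+* K) p P ≤ Fintype.card σ * (μ * ψ P) :=
    fun P o => mul_le_mul_of_nonneg_left (up φ P _ ok (mul_nonneg m0 (p0 P o)) fun b => hm b P o) c0
  obtain ⟨G, hG, -, m, hm', pr⟩ := wt_large (zero_mem (Wt (mx s) R₀)) (c + 1)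
  obtain ⟨h, h0, a, b⟩ := sq n K hK L σ z φ Γ (mx s) (Wt (mx s) R₀) p E hz (nef_mx s)
    (fun G hG => ⟨wt_nn hG, let ⟨m, e⟩ := wt_prn hG; ⟨m, m.cast_nonneg, e⟩⟩)
    ⟨G, hG, nef_up h1 (by linarith) pr, big_up (c := c + 1) (by
      rw [add_smul, one_smul, add_comm, add_sub_assoc]; exact hb.add_nef h1) hm' pr⟩ hp
    fun P hP => k P ((ov_iff hK).2 hP)
  refine ⟨h, h0, by linarith [u E hE], fun P o => ⟨?_, fun t => by
    linarith [(b P (Ov.zr o)).2 t, u P o]⟩⟩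
  have := le_ov hK hb (.refl (smp_mx s)) (d.smul (-(2 * Fintype.card σ * μ + 2 / β)))
    (.dv (smp_mx s) h) (fun P e o => ?_) o
  · simp only [Pi.smul_apply, smul_eq_mul, dv_apply] at this
    linarith
  have l1 : ld (n + 1) Γ P ≤ 1 := add_le_of_nonpos_left (k1 P e)
  have l0 : 0 ≤ (2 * Fintype.card σ * μ + 2 / β) * ψ P := mul_nonneg (by positivity) (p0 P o)
  rw [Pi.smul_apply, smul_eq_mul, dv_apply, neg_mul]
  rcases ok P with t | ⟨v, l⟩
  · exact (neg_nonpos.2 l0).trans (Int.cast_nonneg (Pl.ord_nonneg_of_mem _ ((b P (Ov.zr o)).1 t l1)))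
  have a := (b P (Ov.zr o)).2 l.not_trv
  have a' := u P o
  rcases p1 P e o with e0 | e0
  · have k0 := kq_nonneg (Ot.rf_ff hz) rfl (P := v) fun b => (l _).2 (mem_ord (by
      have := hm b P o
      rw [e0, mul_zero, add_zero] at this
      exact_mod_cast this))
    have e1 : (1 : ℝ) ≤ P.ord ((φ : L →+* K) v.t) := by exact_mod_cast l.e_pos
    rw [l.pb, Pi.add_apply, Pi.one_apply] at a
    rw [e0] at a' ⊢
    have : (-1 : ℝ) < P.ord h := by nlinarith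
    have : (-1 : ℤ) < P.ord h := by exact_mod_cast this
    rw [mul_zero, neg_zero]
    exact Int.cast_nonneg (by omega)
  · have g := (Finset.sum_le_sum fun b (_ : b ∈ Finset.univ) =>
      neg_le_iff_add_nonneg.2 (hm b P o)).trans (pb_kq_ge hz ok P)
    rw [Finset.sum_const, Finset.card_univ, nsmul_eq_mul] at g
    have : 2 ≤ 2 / β * ψ P := by
      rw [div_mul_eq_mul_div, le_div_iff₀ b0]
      linarith
    linarith

theorem rad0 (hK : FF K (n + 1)) (q0 : 0 < q) (N0 : 0 < N) (t0 : 0 < t) (co : Co n q Γ s R₀)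
    (lc : LcC n N Γ (Ov s R₀) g) (ce : Ce n N t Γ s R₀ g E) (hz : Rf z) (φ : L →ₐ[ℂ] K)
    (m0 : 0 ≤ μ) (hm : ∀ b P, Ov s R₀ P → 0 ≤ P.ord (φ (z b)) + μ * (P.ord g / N - Γ P))
    (hE : pb (φ : L →+* K) (kq z + 1) E ≤ Fintype.card σ * (μ * ld (n + 1) Γ E)) {P : Pl K}
    (o : Ov s R₀ P) : pb (φ : L →+* K) (kq z + 1) P ≤
      (2 + Fintype.card σ * μ + (5 * Fintype.card σ * μ + 2 * q * N + N) / t) * ld (n + 1) Γ P := by
  obtain ⟨c, hc⟩ := co.rel.nef
  have n0 : (0 : ℝ) < N := Nat.cast_pos.2 N0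
  have q1 : (0 : ℝ) < q := Nat.cast_pos.2 q0
  have c0 : (0 : ℝ) ≤ Fintype.card σ := Nat.cast_nonneg _
  let ψ : BD K := (N : ℝ)⁻¹ • dv g - Γ
  have e : ∀ P, ψ P = P.ord g / N - Γ P := fun P => by
    simp only [ψ, Pi.sub_apply, Pi.smul_apply, smul_eq_mul, dv_apply, div_eq_inv_mul]
  have p0 : ∀ P, Ov s R₀ P → 0 ≤ ψ P := fun P o => by
    rw [e, sub_nonneg, le_div_iff₀' n0]
    exact lc.1.2 P o
  have p2 : ∀ P, Ov s R₀ P → ψ P ≤ ld (n + 1) Γ P := fun P o => by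
    have := (div_le_iff₀' n0).2 (lc.2 P o)
    rw [e, ld, dsc, Pi.sub_apply]
    linarith
  obtain ⟨h, h0, a, b⟩ := radh (β := 1 / (q * N)) (ψ := ψ) hK hz φ co.rel.pr.big hc
    (((Dsc.dv (smp_mx s) g).smul _).sub co.rel.pr.des) co.klt co.rel.pr.bdy (by positivity) p0
    (fun P on o => by
      obtain ⟨j, hj⟩ := co.cf P on o
      obtain ⟨i, hi⟩ := cn_int (n := n + 1) P
      have e1 : ψ P = (q * P.ord g - N * j - q * N * i : ℤ) / (q * N) := by
        rw [ld, dsc, Pi.sub_apply, hi] at hj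
        rw [e, show Γ P = j / q + i by linarith]
        push_cast
        field_simp
        ring
      have := p0 P o
      rw [e1] at this ⊢
      rw [le_div_iff₀ (by positivity), zero_mul] at this
      rcases (Int.cast_nonneg_iff.1 this).eq_or_lt with z | z
      · exact .inl (by rw [← z, Int.cast_zero, zero_div])
      · exact .inr (div_le_div_of_nonneg_right (by exact_mod_cast z) (by positivity)))
    m0 (fun b P o => (e P).symm ▸ hm b P o) ce.ov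
  have kP := co.klt P o
  have kE := co.klt E ce.ov
  by_cases tr : Trv (φ : L →+* K) P
  · rw [tr.pb]
    positivity
  set l := 2 * Fintype.card σ * μ + 2 / (1 / ((q : ℝ) * N)) with hl
  have l0 : 0 ≤ l := by positivity
  let m := ⌈l / N⌉₊
  have m1 : l ≤ N * m := (div_le_iff₀' n0).1 (Nat.le_ceil _)
  have m2 : N * (m : ℝ) ≤ l + N := by
    have := mul_le_mul_of_nonneg_left (Nat.ceil_lt_add_one (div_nonneg l0 n0.le)).le n0.le
    rwa [mul_add, mul_div_cancel₀ _ n0.ne', mul_one] at this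
  have f : ∀ P : Pl K, (P.ord (h * g ^ m) : ℝ) - (N * m : ℕ) * Γ P = P.ord h + N * m * ψ P :=
    fun P => by
      rw [Pl.ord_mul _ h0 (pow_ne_zero _ lc.1.1), ← zpow_natCast, Pl.ord_zpow, e]
      push_cast
      field_simp
      ring
  have cn := ce.cn (N * m) (h * g ^ m) ⟨mul_ne_zero h0 (pow_ne_zero _ lc.1.1), fun Q o => by
    have := mul_le_mul_of_nonneg_right m1 (p0 Q o)
    linarith [f Q, (b Q o).1]⟩ P o
  rw [f, f] at cn
  have a1 := mul_le_mul_of_nonneg_left (mul_le_mul_of_nonneg_left (p2 E ce.ov) m0) c0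
  have a2 := mul_le_mul_of_nonneg_left (mul_le_mul_of_nonneg_left (p2 P o) m0) c0
  have a3 := mul_le_mul m2 (p2 E ce.ov) (p0 E ce.ov) (by positivity)
  have a4 : (E.ord h : ℝ) + N * m * ψ E ≤
      (5 * Fintype.card σ * μ + 2 * q * N + N) * ld (n + 1) Γ E := by
    rw [hl, div_div_eq_mul_div, div_one] at a3
    linarith
  have a5 : (P.ord h : ℝ) + N * m * ψ P ≤
      (5 * Fintype.card σ * μ + 2 * q * N + N) / t * ld (n + 1) Γ P := by
    rw [div_mul_eq_mul_div, le_div_iff₀ t0]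
    refine le_of_mul_le_mul_left ?_ kE
    linarith [mul_le_mul_of_nonneg_right a4 kP.le]
  have a6 : 0 ≤ N * m * ψ P := mul_nonneg (by positivity) (p0 P o)
  linarith [(b P o).2 tr]

open Lz in
/-- **RADK**: the log discrepancy of the base of a fibration by monomial coordinates of level `l` -/
def RADK (n : ℕ) : Prop := ∀ (t : ℝ) (q N : ℕ), 0 < t → 0 < q → 0 < N → ∃ C : ℝ, 1 ≤ C ∧
  ForN n fun K _ _ => ∀ (Γ : BD K) (s₀ : Finset K) (R₀ : Pl K) (g : K) (E : Pl K) (L σ : Type)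
    [Field L] [Algebra ℂ L] [Fintype σ] (z : σ → L) (φ : L →ₐ[ℂ] K) (l : ℝ), Co n q Γ s₀ R₀ →
    LcC n N Γ (Ov s₀ R₀) g → Ce n N t Γ s₀ R₀ g E → Rf z → 1 ≤ l →
    (∀ b, φ (z b) ∈ Sl (Ov s₀ R₀) (ps N g Γ) l) → (∀ b, (E.ord (φ (z b)) : ℝ) ≤ l * ps N g Γ E) →
    (Ind E fun b => φ (z b)) →
    ∀ P, Ov s₀ R₀ P → pb (φ : L →+* K) (kq z + 1) P ≤ C * l * ld (n + 1) Γ P

theorem radk (n : ℕ) : RADK n := fun t q N t0 q0 N0 => by
  refine ⟨2 + (n + 1) + (5 * (n + 1) + 2 * q * N + N) / t, by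
    have : 0 ≤ (n + 1) + (5 * (n + 1) + 2 * q * N + N) / t := by positivity
    linarith, fun K _ _ hK Γ s R₀ g E L σ _ _ _ z φ l co lc ce hz l1 hm sz ind P o => ?_⟩
  have n0 : (0 : ℝ) < N := Nat.cast_pos.2 N0
  have e : ∀ P, Lz.ps N g Γ P = P.ord g / N - Γ P := fun P => by
    simp only [Lz.ps, Pi.sub_apply, Pi.smul_apply, smul_eq_mul, dv_apply, div_eq_inv_mul]
  have a : Lz.ps N g Γ E = ld (n + 1) Γ E := by
    rw [e, show (E.ord g : ℝ) = _ from ce.lp, mul_div_cancel_left₀ _ n0.ne', ld, dsc, Pi.sub_apply]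
    ring
  have c : (Fintype.card σ : ℝ) ≤ n + 1 := by
    have := (hz.ind.map' (f := φ) φ.injective).cardinalMk_le_trdeg
    rw [hK.trdeg, Cardinal.mk_fintype, Nat.cast_le] at this
    exact_mod_cast this
  refine (rad0 (μ := l) hK q0 N0 t0 co lc ce hz φ (by linarith) (fun b P o => e P ▸
    (Lz.mem_Sl.1 (hm b) P o).resolve_left ((map_ne_zero φ).2 (hz.ind.ne_zero b))) (by
      rw [mon hK hz φ ind, ← a, ← nsmul_eq_mul, ← Finset.card_univ, ← Finset.sum_const]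
      exact Finset.sum_le_sum fun b _ => sz b) o).trans
    (mul_le_mul_of_nonneg_right ?_ (co.klt P o).le)
  have l0 : 0 ≤ l := by linarith
  have : (5 * Fintype.card σ * l + 2 * q * N + N) / t ≤ (5 * (n + 1) + 2 * q * N + N) / t * l := by
    rw [div_mul_eq_mul_div]
    refine div_le_div_of_nonneg_right ?_ t0.le
    have : (2 * q * N + N : ℝ) * 1 ≤ (2 * q * N + N) * l :=
      mul_le_mul_of_nonneg_left l1 (by positivity)
    nlinarith [mul_le_mul_of_nonneg_right c l0]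
  nlinarith [mul_le_mul_of_nonneg_right c l0]

end Vale.Agent.P283B.Rd
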