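import Vale.Agent.P283B.LS.St
import Vale.Agent.P283B.LC.Loc

/-!
# P283B, block RD: a bound for the radii (statements)
-/

set_option linter.unusedVariables false

noncomputable section

namespace Vale.Agent.P283B.Rd

open P287D Wp Ls Lcb

/-- the members of `C` are effective and equivalent to multiples of `H` -/
def Cn {K : Type} [Field K] [Algebra ℂ K] (H : BD K) (C : AddSubmonoid (BD K)) : Prop :=
  ∀ G ∈ C, 0 ≤ G ∧ ∃ m : ℝ, 0 ≤ m ∧ G - m • H ∈ Prn K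

/-- `p` bounds the poles of `z` -/
def Pb {L σ : Type} [Field L] [Algebra ℂ L] (z : σ → L) (p : BD L) : Prop :=
  ∀ u, 0 ≤ p u ∧ ∀ b, -(u.ord (z b) : ℝ) ≤ p u

/-- **OTP**: extension from the graph, the coordinates may have poles -/
def OTP : Prop := ForS fun n E _ _ => ∀ (L σ : Type) [Field L] [Algebra ℂ L] [Fintype σ]
  (z : σ → L) (φ : L →ₐ[ℂ] E) (Γ H : BD E) (C : AddSubmonoid (BD E)) (p : BD L) (v : Pl L) (k : ℤ),
  Rf z → Nef H → Cn H C → (∃ G ∈ C, Nef (G - Γ) ∧ Big (G - Γ)) → Pb z p →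
  (∀ w, Zr C w → (Trv (φ : L →+* E) w → 0 < ld (n + 1) Γ w) ∧
    (Lies (φ : L →+* E) w v → 0 < ld (n + 1) Γ w + k * w.ord (φ v.t))) →
  ∃ (r : ℕ) (g : Fin r → E) (e : Fin r → L),
    (∀ l w, Zr C w → g l = 0 ∨
      0 < ld (n + 1) Γ w + Fintype.card σ * pb (φ : L →+* E) p w + w.ord (g l)) ∧
    (∀ l, e l = 0 ∨ 0 < kq z v + 1 + Fintype.card σ * p v + v.ord (e l)) ∧
    φ v.t ^ k = ∑ l, g l * φ (e l)

/-- **SQ**: a function from the fibre square -/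
def SQ : Prop := ForS fun n F _ _ => ∀ (L σ : Type) [Field L] [Algebra ℂ L] [Fintype σ]
  (z : σ → L) (φ : L →ₐ[ℂ] F) (Γ H : BD F) (C : AddSubmonoid (BD F)) (p : BD L) (E : Pl F),
  Rf z → Nef H → Cn H C → (∃ G ∈ C, Nef (G - Γ) ∧ Big (G - Γ)) → Pb z p →
  (∀ P, Zr C P → 0 < ld (n + 1) Γ P) → ∃ h : F, h ≠ 0 ∧
    (E.ord h : ℝ) ≤ 2 * pb (φ : L →+* F) (kq z + 1) E + Fintype.card σ * pb (φ : L →+* F) p E ∧
    ∀ P, Zr C P → (Trv (φ : L →+* F) P → ld (n + 1) Γ P ≤ 1 → h ∈ P.ring) ∧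
      (¬ Trv (φ : L →+* F) P → pb (φ : L →+* F) (kq z + 1) P <
        2 * ld (n + 1) Γ P + Fintype.card σ * pb (φ : L →+* F) p P + P.ord h)

/-- leaf -/
def SSQ : Prop := OTP → SQ

end Vale.Agent.P283B.Rd
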