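import Vale.Agent.P283B.LS.BriA
import Vale.Agent.P283B.LS.Ot

/-!
# P283B, block RD: new variables over the total space and over the base
-/

set_option linter.unusedVariables false
set_option linter.unusedSectionVars false

open Set
open Vale.Agent.P297Z

noncomputable section

namespace Vale.Agent.P283B.Rd

open P287D Wp Cb Ls

variable {K L : Type} [Field K] [Field L] [Algebra ℂ K] [Algebra ℂ L] {σ τ : Type} [Fintype σ]
  [Fintype τ] {n : ℕ}

section base

variable {F M ι : Type} [Field F] [Field M] [Algebra ℂ F] [Algebra ℂ M] [Algebra K F]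
  [IsScalarTower ℂ K F] [Fintype ι]

theorem ad_two [Algebra L K] [IsScalarTower ℂ L K] {r k m : ℕ} (hL : FF L k) (hK : FF K (r + k))
    (hF : FF F m) (P : Pl F) : ∃ (α β : Type) (_ : Fintype α) (_ : Fintype β)
      (y : α → K) (t : β → L), Fintype.card α = r ∧ Fintype.card β = k ∧
      AlgebraicIndependent L y ∧ AlgebraicIndependent ℂ t ∧
      pb (algebraMap K F) (kq (f1 y t) + 1) P = ∑ i, (P.ord (algebraMap K F (f1 y t i)) : ℝ) ∧
      pb ((algebraMap K F).comp (algebraMap L K)) (kq t + 1) P =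
        ∑ i, (P.ord (algebraMap K F (algebraMap L K (t i))) : ℝ) := by
  obtain ⟨z, hz, -⟩ := id hL
  rcases okL (L := K) hF P with s | ⟨v, l⟩
  · obtain ⟨y, hy⟩ := exists_y hL hK
    exact ⟨_, _, _, _, y, z, Fintype.card_fin r, by simp, hy, hz, pb_ap (.inl s),
      pb_ap (.inl (s.comp _))⟩
  rcases okL (L := L) hK v with s | ⟨u, l'⟩
  · obtain ⟨α, _, y, a, b, c⟩ := ad_hr hL hK hz (by simp) s
    exact ⟨α, _, _, _, y, z, a, by simp, b, hz, pb_ap (.inr ⟨v, l, c⟩), pb_ap (.inl (l.comp_trv s))⟩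
  obtain _ | k := k
  · exact (no_pl hL u).elim
  obtain ⟨a, ha⟩ := exists_az hL u
  obtain ⟨y, -, b, c⟩ := ad_vt hL hK ha (by simp) l'
  exact ⟨_, _, _, _, y, zz u a, Fintype.card_fin r, by simp, b, ha.indep, pb_ap (.inr ⟨v, l, c⟩),
    pb_ap (.inr ⟨u, l.comp l', ha.ap hL (by simp)⟩)⟩

theorem bc_ge [Algebra L K] [IsScalarTower ℂ L K] [Algebra M F] [IsScalarTower ℂ M F] {r k : ℕ}
    (hL : FF L k) (hK : FF K (r + k)) (hM : FF M (Fintype.card σ + k))
    (hF : FF F (r + k + Fintype.card σ)) (χ : L →ₐ[ℂ] M)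
    (sq : ∀ a, algebraMap M F (χ a) = algebraMap K F (algebraMap L K a)) {s : σ → M}
    (ind : AlgebraicIndependent K (algebraMap M F ∘ s)) {z : τ → L} (cz : Fintype.card τ = k)
    (hz : AlgebraicIndependent ℂ z) {x : ι → K} (cx : Fintype.card ι = r + k)
    (hx : AlgebraicIndependent ℂ x) (P : Pl F) :
    pb (algebraMap M F) (kq (Sum.elim (χ ∘ z) s) + 1) P + pb (algebraMap K F) (kq x + 1) P ≤
      kq (Sum.elim (algebraMap K F ∘ x) (algebraMap M F ∘ s)) P + 1 +
        pb ((algebraMap K F).comp (algebraMap L K)) (kq z + 1) P := by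
  obtain ⟨α, β, _, _, y, t, cy, ct, hy, ht, e2, e3⟩ := ad_two hL hK hF P
  have i1 := Ot.ind_sum ind (ind1 hy ht)
  let z' : σ ⊕ β → M := Sum.elim s (χ ∘ t)
  have q : ∀ i, Sum.elim (algebraMap K F ∘ f1 y t) (algebraMap M F ∘ s) (sw σ β α i) =
      Sum.elim (algebraMap M F ∘ z') (algebraMap K F ∘ y) i := by
    rintro ((i | i) | i)
    exacts [rfl, (sq _).symm, rfl]
  have i2 : AlgebraicIndependent ℂ (Sum.elim (algebraMap M F ∘ z') (algebraMap K F ∘ y)) :=
    (congrArg (fun w => AlgebraicIndependent ℂ w) (funext q)).mp (i1.comp _ (sw σ β α).injective)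
  have i0 := i2.comp (Sum.inl : σ ⊕ β → _) Sum.inl_injective
  rw [Sum.elim_comp_inl] at i0
  have i3 : AlgebraicIndependent ℂ z' := .of_comp (IsScalarTower.toAlgHom ℂ M F) i0
  have i4 : AlgebraicIndependent M (algebraMap K F ∘ y) :=
    indL hM (r := r) (by rwa [add_comm (Fintype.card σ), ← add_assoc]) cy (by simp [ct]) (z := z')
      ((congrArg (fun w => AlgebraicIndependent ℂ w) (funext (by rintro (i | i) <;> rfl))).mp
        (i2.comp _ (Equiv.sumComm _ _).injective))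
  have a := Ot.kq_ge (φ := algebraMap M F) hM hF (lin M F) (by simp [ct]) (by omega) i3
    (fun x hx => Ot.ind_sum i4 hx) P
  rw [← kq_congr hF (by simp [ct, cy]; omega) (sw σ β α) q] at a
  have e1 := kq_chg (φ := (χ : L →+* M)) hL hM χ.commutes cz ct (add_comm _ _) (s := s) hz ht
    ((congrArg (fun w => AlgebraicIndependent ℂ w) (funext (by rintro (i | i) <;> rfl))).mp
      (i3.comp _ (Equiv.sumComm _ _).injective))
  rw [kq_congr hM (by simp [ct]) (Equiv.sumComm _ _) (y := z') (y' := Sum.elim (_ ∘ t) s)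
    (by rintro (i | i) <;> rfl)] at e1
  have e4 : (algebraMap K F).comp (algebraMap L K) = (algebraMap M F).comp (χ : L →+* M) :=
    RingHom.ext fun a => (sq a).symm
  have e5 := congrFun (kq_chg hK hF (lin K F) cx (by simp [cy, ct]) rfl hx (ind1 hy ht) i1) P
  have e6 : pb (algebraMap M F) (kq (Sum.elim (χ ∘ z) s) + 1) = pb (algebraMap M F) (kq z' + 1) +
      (pb ((algebraMap K F).comp (algebraMap L K)) (kq z + 1) -
        pb ((algebraMap K F).comp (algebraMap L K)) (kq t + 1)) := by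
    rw [← pb_sub, e4, (okL (L := M) hF).pb_comp, ← pb_add, add_sub_add_right_eq_sub, add_right_comm,
      ← e1]
    rfl
  rw [show kq x - kq (f1 y t) = kq x + 1 - (kq (f1 y t) + 1) by abel, pb_sub] at e5
  rw [e6, e5]
  rw [Fintype.sum_sum_type] at e2
  simp only [Pi.add_apply, Pi.sub_apply, Function.comp_apply] at a ⊢
  change _ = ∑ i, (P.ord (algebraMap K F (y i)) : ℝ) +
    ∑ i, (P.ord (algebraMap K F (algebraMap L K (t i))) : ℝ) at e2
  linarith

/-- **base change**: `F / K` and `M / L` have the same new variables -/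
theorem su_ge (hK : FF K n) (hF : FF F (n + Fintype.card σ)) {z : σ ⊕ τ → M} (hz : Rf z)
    (φ : M →ₐ[ℂ] F) (ind : AlgebraicIndependent K fun b => φ (z (.inl b))) {z₁ : τ → L}
    (hz₁ : Rf z₁) (φ₁ : L →ₐ[ℂ] K) (cut : ∀ k, φ (z (.inr k)) = algebraMap K F (φ₁ (z₁ k)))
    {x : ι → K} (cx : Fintype.card ι = n) (hx : AlgebraicIndependent ℂ x) (P : Pl F) :
    pb (φ : M →+* F) (kq z + 1) P + pb (algebraMap K F) (kq x + 1) P ≤
      kq (Sum.elim (algebraMap K F ∘ x) fun b => φ (z (.inl b))) P + 1 +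
        pb (algebraMap K F) (pb (φ₁ : L →+* K) (kq z₁ + 1)) P := by
  obtain ⟨χ, hχ⟩ := Bi.rf_hom hz₁ (hz.ind.comp _ Sum.inr_injective)
  have sq : φ.comp χ = (IsScalarTower.toAlgHom ℂ K F).comp φ₁ := Bi.rf_ext hz₁ fun k =>
    (congrArg φ (hχ k)).trans (cut k)
  have hM := Ot.rf_ff hz
  obtain ⟨r, rfl⟩ : ∃ r, n = r + Fintype.card τ := by
    have := (hz₁.ind.map' (f := φ₁) φ₁.injective).cardinalMk_le_trdeg
    rw [hK.trdeg, Cardinal.mk_fintype, Nat.cast_le] at this
    exact ⟨_, (Nat.sub_add_cancel this).symm⟩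
  rw [← (okL (L := K) hF).pb_comp, ← kq_congr hM rfl (Equiv.sumComm _ _) (y := z)
    (y' := Sum.elim (χ ∘ z₁) fun b => z (.inl b)) (by rintro (i | i); exacts [rfl, hχ i])]
  rw [Fintype.card_sum] at hM
  let _ := (φ₁ : L →+* K).toAlgebra
  let _ := (φ : M →+* F).toAlgebra
  have : IsScalarTower ℂ L K := .of_algebraMap_eq fun c => (φ₁.commutes c).symm
  have : IsScalarTower ℂ M F := .of_algebraMap_eq fun c => (φ.commutes c).symm
  exact bc_ge (Ot.rf_ff hz₁) hK hM hF χ (DFunLike.congr_fun sq) ind rfl hz₁.ind cx hx P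

end base

end Vale.Agent.P283B.Rd
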