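import Vale.Agent.P283B.RD.St
import Vale.Agent.P283B.LS.Ot

/-!
# P283B, block RD: extension from the graph, with poles
-/

set_option linter.unusedVariables false
set_option linter.unusedSectionVars false

open Set MvPolynomial TensorProduct
open Vale.Agent.P285N.Brep (jac Fr)
open Vale.Agent.P297Z

noncomputable section

namespace Vale.Agent.P283B.Rd

open P287D Wp Cb Ls Ot Lcb

section main

variable {E L F : Type} [Field E] [Field L] [Field F] [Algebra ℂ E] [Algebra ℂ L] [Algebra ℂ F]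
  {σ τ : Type} [Fintype σ] [Fintype τ] {n : ℕ}

theorem okp {φ : L →ₐ[ℂ] E} (ok : Ok (φ : L →+* E)) {z : σ → L} {p : BD L} (h : Pb z p) :
    Pb (fun b => φ (z b)) (pb (φ : L →+* E) p) := fun w =>
  ⟨pb_nonneg _ (fun u => (h u).1) w, fun b => by
    rcases ok w with t | ⟨u, l⟩
    · have e : w.ord (φ (z b)) = 0 := t.ord _
      simp [e, t.pb]
    · have e : w.ord (φ (z b)) = _ := l.ord _
      rw [e, l.pb, Int.cast_mul, ← mul_neg]
      exact mul_le_mul_of_nonneg_left ((h u).2 b) (Int.cast_nonneg l.e_pos.le)⟩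

variable [Algebra E F] [Algebra L F] [IsScalarTower ℂ E F] [IsScalarTower ℂ L F]

/-- extension from the graph to the product -/
theorem ext (h : Gf.BE ℂ E L F) (hE : FF E (n + 1)) {z : Option τ → L} (hz : Rf z) (φ : L →ₐ[ℂ] E)
    {x : Fin (n + 1) → E} (hx : AlgebraicIndependent ℂ x) {A : BD E} {G : BD L} {u : E}
    (a1 : Nef (-A)) (a2 : Big (-A)) (g1 : Nef G) (g2 : Big G)
    (k : ∀ w, 0 < (kq x + 1 - A + pb (φ : L →+* E) G + dv u) w) : ∃ g : F,
      (∀ (α : Type) [Fintype α] (c : α → E) (e : α → L),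
        g = ∑ i, algebraMap E F (c i) * algebraMap L F (e i) → u = ∑ i, c i * φ (e i)) ∧
      ∀ (R : Pl F) (m : ℝ), (∀ b, -m ≤ R.ord (algebraMap L F (z b))) →
        (∀ b, -m ≤ R.ord (algebraMap E F (φ (z b)))) →
        (g ∈ R.ring ∧ Trv (algebraMap E F) R ∧ Trv (algebraMap L F) R) ∨ g = 0 ∨
        -1 < kq (Sum.elim (algebraMap E F ∘ x) (algebraMap L F ∘ z)) R - pb (algebraMap E F) A R +
          pb (algebraMap L F) G R + (Fintype.card τ + 1) * m + R.ord g := by
  classical
  set y := algebraMap L F ∘ z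
  let c : Option τ → F := fun b => algebraMap E F (φ (z b))
  have hy : AlgebraicIndependent E y := (swap h).algInd hz.ind
  have hF : FF F (n + 1 + Fintype.card τ + 1) := by
    have := ff_gen hE hy (gen_of h hz fun b => IntermediateField.subset_adjoin _ _ ⟨b, rfl⟩)
    rwa [Fintype.card_option] at this
  let t := y none - c none
  have t0 : t ≠ 0 := fun e => hy.transcendental none (sub_eq_zero.1 e ▸ isAlgebraic_algebraMap _)
  let T : Option τ → F := fun o => o.elim t fun b => (y (some b) - c (some b)) / t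
  have e0 : y none = t + c none := (sub_add_cancel _ _).symm
  have e1 : ∀ b, y (some b) = t * T (some b) + c (some b) := fun b => by
    rw [show T (some b) = _ / t from rfl, mul_div_cancel₀ _ t0, sub_add_cancel]
  have gT : IntermediateField.adjoin E (range T) = ⊤ := by
    have m : ∀ b, T b ∈ IntermediateField.adjoin E (range T) := fun b =>
      IntermediateField.subset_adjoin _ _ ⟨b, rfl⟩
    refine gen_of h hz fun b => show y b ∈ _ from ?_
    rcases b with _ | b
    · exact e0 ▸ add_mem (m none) (IntermediateField.algebraMap_mem _ _)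
    · exact e1 b ▸ add_mem (mul_mem (m none) (m _)) (IntermediateField.algebraMap_mem _ _)
  have hT : AlgebraicIndependent E T := Gm.Ga.ind_alg.2 (Gm.ind_of_trdeg (lin E F) hE
    (congrArg IntermediateField.toSubfield gT) (by rw [hF.trdeg, Fintype.card_option]; rfl))
  obtain ⟨P, p1, p2, p3, p4⟩ := qpl (ι := Fin (n + 1)) hE hT gT (X_prime (i := none))
  rw [aeval_X] at p3
  have tE : Trv (algebraMap E F) P := fun e => by simpa using p1 (C e)
  have mT : ∀ b, T b ∈ P.ring := fun b => by simpa using p1 (X b)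
  have mt : Mx P t := mx_iff.2 (.inr (zero_lt_one.trans_eq p3.symm))
  let ρ := Gx.hr tE
  have cρ : ∀ a, ρ (algebraMap ℂ E a) = algebraMap ℂ P.κ a := fun a => by
    rw [Gx.hr_apply tE, lin, rd_const]
  let _ := ρ.toAlgebra
  have : IsScalarTower ℂ E P.κ := .of_algebraMap_eq fun a => (cρ a).symm
  have iT : AlgebraicIndependent E fun b => P.rd (T (some b)) :=
    algebraicIndependent_iff.2 fun p hp => by
      have q := rd_ev tE (fun b => mT (some b)) p
      obtain ⟨r, hr⟩ := (p2 (rename some p)).1 (by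
        rw [aeval_rename]; exact (rd_eq_zero q.1).1 (q.2.trans hp))
      have := congrArg (aeval fun o : Option τ => o.elim (0 : MvPolynomial τ E) X) hr
      rw [aeval_rename, map_mul, aeval_X] at this
      exact (aeval_X_left_apply p).symm.trans (this.trans (zero_mul _))
  have my : ∀ b, y b ∈ P.ring ∧ P.rd (y b) = ρ (φ (z b)) := by
    have : ∀ a b, Mx P a → a + c b ∈ P.ring ∧ P.rd (a + c b) = ρ (φ (z b)) := fun a b m =>
      ⟨add_mem m.mem (tE _), by
        rw [rd_add m.mem (tE _), (rd_eq_zero m.mem).2 m, zero_add, Gx.hr_apply tE]⟩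
    rintro (_ | b)
    · exact e0 ▸ this _ _ mt
    · exact e1 b ▸ this _ _ (mul_comm t _ ▸ mt.mul (mT _))
  let ψ := IsScalarTower.toAlgHom ℂ L F
  let θ := (ah ρ cρ).comp φ
  have ev : ∀ p : MvPolynomial (Option τ) ℂ, P.rd (ψ (aeval z p)) = θ (aeval z p) := fun p => by
    rw [comp_aeval_apply _ ψ, comp_aeval_apply _ θ]
    exact (rd_aeval (fun b => (my b).1) p).trans (congrArg (aeval · p) (funext fun b => (my b).2))
  have tL : Trv (algebraMap L F) P := rf_trv hz ψ (fun b => (my b).1) fun p m =>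
    algebraicIndependent_iff.1 hz.ind p ((map_eq_zero θ).1 ((ev p).symm.trans
      ((rd_eq_zero m.mem).2 m)))
  have eL : ∀ f, θ f = P.rd (algebraMap L F f) := fun f => by
    obtain ⟨p, q, rfl⟩ := (IntermediateField.mem_adjoin_range_iff ℂ z f).1 (hz.gen ▸ trivial)
    rw [← Gx.hr_apply tL, map_div₀, map_div₀, Gx.hr_apply tL, Gx.hr_apply tL, ← ev, ← ev]
    rfl
  have cl : ∀ (w : Fin (n + 1) ⊕ Option τ → F) (S : Set _), (∀ i, w (.inl i) = algebraMap E F (x i)) →
      (∀ i, .inl i ∈ S) → ∀ e, algebraMap E F e ∈ Gm.Cl (w '' S) := fun w S a b e =>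
    Gm.cl_map (Cst.of_lin (lin E F)) (forall_mem_range.2 fun i => Gm.sub_Cl ⟨_, b i, a i⟩)
      (Gm.cl_basis hE hx (by simp) e)
  have cd : Fintype.card (Fin (n + 1) ⊕ Option τ) = n + 1 + Fintype.card τ + 1 := by
    simp [add_assoc]
  have f1 := kq_tri hF cd (fun i => ∃ b, i = .inr (some b))
    (a := Sum.elim 1 fun o => o.elim 1 fun _ => t) (c := Sum.elim 0 fun o => o.elim 0 (c ∘ some))
    (ind_sum hT hx) (by rintro (_ | _ | _) <;> simp [t0]) (by rintro (_ | _ | _) <;> simp) (by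
      rintro (_ | _ | _)
      exacts [⟨one_mem _, zero_mem _⟩, ⟨one_mem _, zero_mem _⟩,
        ⟨Gm.sub_Cl ⟨.inr none, by simp, rfl⟩, cl _ _ (fun _ => rfl) (by simp) _⟩])
  have f2 := kq_tri hF cd (· = .inr none) (a := 1)
    (c := Sum.elim 0 fun o => o.elim (-c none) 0) (ind_sum hy hx) (by simp)
    (by rintro (_ | _ | _) <;> simp) (by
      rintro (_ | _ | _)
      exacts [⟨one_mem _, zero_mem _⟩, ⟨one_mem _, neg_mem (cl _ _ (fun _ => rfl) (by simp) _)⟩,
        ⟨one_mem _, zero_mem _⟩])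
  have f3 : kq (Sum.elim (algebraMap E F ∘ x) y) =
      kq (Sum.elim (algebraMap E F ∘ x) T) + (Fintype.card τ : ℝ) • dv t := by
    have := f2.symm.trans ((congrArg kq (funext (by
      rintro (_ | _ | b)
      · rfl
      · simp [e0, T]
      · simp [e1]))).trans f1)
    simpa [Fintype.sum_option, Nat.cast_smul_eq_nsmul] using this
  let S : Finset F := insert 1 (Finset.univ.image fun b => T (some b))
  have s1 : (1 : F) ∈ S := Finset.mem_insert_self _ _
  have s2 : ∀ b, T (some b) ∈ S := fun b => by simp [S]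
  have s3 : ∀ R : Pl F, ∀ a : ℤ, 0 ≤ a → (∀ b, -R.ord (T (some b)) ≤ a) → R.mz S ≤ a :=
    fun R a p q => R.mz_le ⟨1, s1, one_ne_zero⟩ (by simpa [S] using ⟨p, fun b _ => q b⟩)
  have s4 : P.mz S = 0 := le_antisymm (s3 P 0 le_rfl fun b =>
    neg_nonpos.2 (Pl.ord_nonneg_of_mem _ (mT _))) (by simpa using P.le_mz s1 one_ne_zero)
  obtain ⟨j, -, ej⟩ := kq_cn hF cd (ind_sum hT hx)
  have oE := okL (L := E) hF
  have oL := okL (L := L) hF
  have cA : A ∈ Car E := neg_mem_iff.1 a1.car
  let s : ℝ := Fintype.card τ + 1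
  have s0 : 0 ≤ s := by positivity
  let B := pb (algebraMap E F) A - pb (algebraMap L F) G - s • mx S
  have d : dsc (n + 1 + Fintype.card τ + 1) (B + (dv t - dv j)) =
      kq (Sum.elim (algebraMap E F ∘ x) T) - dv t - B := by rw [ej, dsc]; abel
  have pr : -(B + (dv t - dv j)) - (pb (algebraMap E F) (-A) + pb (algebraMap L F) G + s • mx S) ∈
      Prn F := by
    rw [pb_neg, show ∀ a b c d e : BD F, -(a - b - c + (d - e)) - (-a + b + c) = e - d from
      fun _ _ _ _ _ => by abel]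
    exact sub_mem (dv_mem_Prn _) (dv_mem_Prn _)
  have hκ := Gm.ff_κ P hF
  have oρ : Ok ρ := okL (L := E) hκ
  have ad := adj_kq hF (σ := Fin (n + 1) ⊕ τ) (by simp) (a := t)
    (u := Sum.elim (algebraMap E F ∘ x) fun b => T (some b)) p3
    (by rintro (i | i); exacts [tE _, mT (some i)])
    ((congrArg (fun w => AlgebraicIndependent ℂ w) (funext (by
      rintro (i | i); exacts [Gx.hr_apply tE _, rfl]))).mp (ind_sum iT hx))
    (sub_mem (sub_mem (oE.car cA) (oL.car g1.car)) ((Car F).smul_mem s (mx_mem_Car S)))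
    (d.trans (congrArg (· - dv t - B)
      (kq_congr hF (by simp) (oR _ _) (by rintro (_ | _ | _) <;> rfl))))
  rw [res_sub_smul hF P (sub_mem (oE.car cA) (oL.car g1.car)) (mx_mem_Car S),
    res_sub hF P (oE.car cA) (oL.car g1.car), res_mx hF,
    Pb.res_trv res' hF oE tE (ρ := ρ) (Gx.hr_apply tE) oρ cA,
    Pb.res_trv res' hF oL tL (ρ := ρ.comp φ) eL (hκ.ok θ) g1.car, oρ.pb_comp,
    show (fun i => P.rd (Sum.elim (algebraMap E F ∘ x) (fun b => T (some b)) i)) =
      Sum.elim (ρ ∘ x) fun b => P.rd (T (some b)) from funext (by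
        rintro (i | i); exacts [(Gx.hr_apply tE _).symm, rfl])] at ad
  obtain ⟨g, m, r, a⟩ := Ku.uext _ F hF P _ (ρ u)
    ((((oE.nef a1).add (oL.nef g1)).add ((nef_mx S).smul s0)).congr pr)
    (((big2 h hF a2 g2).add_nef ((nef_mx S).smul s0)).congr pr) (by
      rw [d]
      simp only [B, Pi.sub_apply, Pi.smul_apply, p4 x (by simp) hx, tE.pb, tL.pb, mx_apply, s4,
        dv_apply, show P.ord t = 1 from p3]
      simp) fun Q => .inr (by
      have ge := kq_ge hE hκ cρ (by simp) rfl hx (fun x hx => ind_sum iT hx) Q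
      have m0 : (0 : ℝ) ≤ Q.mz (P.rs S) := mx_nonneg (Finset.mem_image.2 ⟨1, s1, by
        rw [s4, zpow_zero, mul_one, Bm.rd_one]⟩) Q
      have m1 : ∀ b, -(Q.mz (P.rs S) : ℝ) ≤ Q.ord (P.rd (T (some b))) := fun b => by
        have := Q.le_mz (s := P.rs S) (Finset.mem_image.2 ⟨_, s2 b, by
          rw [s4, zpow_zero, mul_one]⟩) (iT.ne_zero b)
        exact_mod_cast neg_le.1 this
      have m2 := Finset.sum_le_sum fun b (_ : b ∈ Finset.univ) => m1 b
      rw [Finset.sum_const, Finset.card_univ, nsmul_eq_mul] at m2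
      have e := congrFun (show pb ρ (kq x + 1 - A + pb (φ : L →+* E) G + dv u) = pb ρ (kq x + 1) -
        pb ρ A + pb ρ (pb (φ : L →+* E) G) + dv (ρ u) by rw [pb_add, pb_add, pb_sub, oρ.pb_dv]) Q
      rw [ad]
      simp only [Pi.sub_apply, Pi.add_apply, Pi.smul_apply, smul_eq_mul, mx_apply, dv_apply, s] at e ⊢
      rcases oρ Q with q | ⟨w, l⟩
      · rcases m0.eq_or_lt with v | v
        · have := kq_nonneg hκ (by simp) (y := Sum.elim (ρ ∘ x) fun b => P.rd (T (some b))) (P := Q)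
            (by rintro (i | i); exacts [q _, mem_ord (by simpa [← v] using m1 i)])
          simp only [q.pb, q.ord, ← v, Int.cast_zero]
          linarith
        · rw [q.pb] at e
          linarith
      · have := mul_pos (Int.cast_pos.2 l.e_pos) (k w)
        rw [← l.pb] at this
        linarith)
  refine ⟨g, fun α _ c e hg => ρ.injective ?_, fun R m₀ r1 r2 => ?_⟩
  · let b : P.ring := ∑ i, ⟨_, tE (c i)⟩ * ⟨_, tL (e i)⟩
    let rs : P.ring →+* P.κ := IsLocalRing.residue P.ring
    rw [← r, show g = b by simpa [b] using hg, map_sum]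
    refine (rd_of b.2).trans ((map_sum rs _ _).trans (Finset.sum_congr rfl fun i _ => ?_))
    rw [map_mul, map_mul]
    exact congrArg _ ((eL _).trans (rd_of _)).symm
  by_cases v : R = P
  · exact .inl (v ▸ ⟨m, tE, tL⟩)
  refine .inr ((a R v).imp_right fun v => ?_)
  have sb : ∀ b, y b - c b ≠ 0 → -m₀ ≤ R.ord (y b - c b) := fun b e =>
    neg_le_iff_add_nonneg.2 (((R.sub m₀).sub_mem (.inr (neg_le_iff_add_nonneg.1 (r1 b)))
      (.inr (neg_le_iff_add_nonneg.1 (r2 b)))).resolve_left e)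
  have o := sb none t0
  have : (R.mz S : ℝ) ≤ R.ord t + m₀ := by
    obtain ⟨f, hf, f0, e⟩ := R.exists_mz ⟨1, s1, one_ne_zero⟩
    rw [e]
    rcases Finset.mem_insert.1 hf with rfl | hf
    · rw [Pl.ord_one]
      change -m₀ ≤ (R.ord t : ℝ) at o
      push_cast
      linarith
    · obtain ⟨b, -, rfl⟩ := Finset.mem_image.1 hf
      have q : y (some b) - c (some b) = t * T (some b) := by rw [e1, add_sub_cancel_right]
      have := sb (some b) (q ▸ mul_ne_zero t0 f0)
      rw [q, Pl.ord_mul _ t0 f0] at this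
      push_cast at this ⊢
      linarith
  have := mul_le_mul_of_nonneg_left this s0
  rw [d] at v
  rw [f3]
  simp only [B, s, Pi.sub_apply, Pi.add_apply, Pi.smul_apply, smul_eq_mul, mx_apply, dv_apply] at *
  linarith

end main

theorem otp : OTP := by
  intro n E _ _ hE L σ _ _ _ z₀ φ Γ H C π v k hz₀ hH hC ⟨G₀, g0, g1, g2⟩ hπ hk
  classical
  have hL := rf_ff hz₀
  obtain ⟨b₀⟩ : Nonempty σ := Fintype.card_pos_iff.1
    (Nat.pos_of_ne_zero fun e => no_pl (e ▸ hL) v)
  let τ := {b // b ≠ b₀}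
  let q : Option τ ≃ σ := Equiv.optionSubtypeNe b₀
  let z := z₀ ∘ q
  have hz : Rf z := ⟨hz₀.ind.comp _ q.injective, by rw [q.surjective.range_comp, hz₀.gen]⟩
  rw [kq_congr hL (Fintype.card_congr q) q (y := z) fun _ => rfl]
  rw [← Fintype.card_congr q, Fintype.card_option] at hL
  rw [← Fintype.card_congr q, Fintype.card_option, Nat.cast_add_one]
  obtain ⟨s, κ, T, _, l, hT, -⟩ := exists_ls hL (finite_singleton v) finite_empty (by simp)
  have ok := hE.ok φ
  have nf : ∀ G ∈ C, Nef G := fun G hG => let ⟨_, m, m0, e⟩ := hC G hG; (hH.smul m0).congr e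
  have cΓ : Γ ∈ Car E := by simpa using sub_mem (nf _ g0).car g1.car
  obtain ⟨_, hG, kl⟩ := Ot.klt_U (C := C ⊔ (Wt (mx s) v).map (pbL (φ : L →+* E)).toAddMonoidHom) hE
    (sub_mem cΓ ((Car E).smul_mem (k : ℝ) (dv_mem_Car (φ v.t)))) hH.car (ok.car (mx_mem_Car s))
    (fun G hG => by
      obtain ⟨a, ha, _, ⟨b, hb, rfl⟩, rfl⟩ := AddSubmonoid.mem_sup.1 hG
      obtain ⟨a0, m, -, e⟩ := hC a ha
      obtain ⟨m', e'⟩ := wt_prn hb
      refine ⟨add_nonneg a0 (pb_nonneg _ (wt_nn hb)), m, m', ?_⟩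
      have := ok.prn e'
      rw [pb_sub, pb_smul] at this
      rw [add_sub_add_comm]
      exact add_mem e this)
    fun w hw => by
      have := hk w fun G hG => hw G (AddSubmonoid.mem_sup_left hG)
      rw [dsc_sub, Pi.smul_apply, dv_apply, smul_eq_mul]
      rcases ok w with t | ⟨u, p⟩
      · have e : w.ord (φ v.t) = 0 := t.ord _
        have := this.1 t
        rw [ld] at this
        rw [e, Int.cast_zero]
        linarith
      · obtain rfl := Api.sep _ L hL _ v u l.smp l.big (l.on v (hT v rfl)) ((ov_iff hL).2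
          fun G hG => by
            have := hw _ (AddSubmonoid.mem_sup_right ⟨G, hG, rfl⟩)
            exact (mul_eq_zero.1 ((p.pb G).symm.trans this)).resolve_left
              (Int.cast_ne_zero.2 p.e_pos.ne'))
        have := this.2 p
        rw [ld] at this
        linarith
  obtain ⟨G₁, h₁, _, ⟨G₂, h₂, rfl⟩, rfl⟩ := AddSubmonoid.mem_sup.1 hG
  obtain ⟨G, h₃, le, m, m1, pr⟩ := wt_large h₂ 1
  obtain ⟨x, hx, -⟩ := id hE
  obtain ⟨f, -, ef⟩ := kq_cn hE (by simp) hx
  obtain ⟨F, _, _, _, _, _, _, h⟩ := amal ℂ E L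
  have p1 : -(Γ + dv f - (G₀ + G₁)) - (G₀ - Γ + G₁) ∈ Prn E := by
    rw [show -(Γ + dv f - (G₀ + G₁)) - (G₀ - Γ + G₁) = -dv f by abel]
    exact neg_mem (dv_mem_Prn f)
  obtain ⟨g, e, a⟩ := Rd.ext h hE hz φ hx (u := φ v.t ^ k) ((g1.add (nf _ h₁)).congr p1)
    ((g2.add_nef (nf _ h₁)).congr p1) (((nef_mx s).smul (zero_le_one.trans m1)).congr pr)
    ((l.big.smul (one_pos.trans_le m1)).congr pr) fun w => by
      have a := kl w
      have b := pb_mono (φ : L →+* E) le w
      have c : 0 ≤ G₀ w := (hC _ g0).1 w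
      change -1 < dsc (n + 1) (_ - (G₁ + pb _ G₂)) w at a
      rw [ef, dv_zpow]
      simp only [dsc, Pi.sub_apply, Pi.add_apply, Pi.one_apply] at a ⊢
      linarith
  obtain ⟨α, _, c₀, e₀, rfl⟩ := den h hE hz hx (g := g) fun R t t' r => by
    rcases a R 0 (fun _ => by simp [t'.ord]) fun _ => by simp [t.ord] with u | rfl | u
    · exact u.1
    · exact zero_mem _
    · rw [r, t.pb, t'.pb, sub_self, add_zero, zero_add, mul_zero, zero_add] at u
      exact mem_ord (by have : (-1 : ℤ) < R.ord g := by exact_mod_cast u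
                        omega)
  have hF : FF F (n + 1 + (Fintype.card τ + 1)) := Fintype.card_option (α := τ) ▸ ff_gen hE
    ((swap h).algInd hz.ind) (gen_of h hz fun b => IntermediateField.subset_adjoin _ _ ⟨b, rfl⟩)
  obtain ⟨r₁, a₁, c₁, i₁, q₁⟩ := red (F := F) c₀ e₀
  obtain ⟨r, a₂, e₂, i₂, q₂⟩ := red (F := F) (e₀ ∘ a₁) c₁
  simp only [mul_comm (algebraMap L F _)] at q₂
  refine ⟨r, c₁ ∘ a₂, e₂, fun i w hw => or_iff_not_imp_left.2 fun c0 => ?_,
    fun i => or_iff_not_imp_left.2 fun c0 => ?_, e _ _ _ (q₁.trans q₂)⟩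
  · obtain ⟨R, p, t, u, o⟩ := tens (swap h) hE hL hF (by simp) Fintype.card_option hx hz.ind w
    obtain ⟨o1, o2⟩ := o _ (e₀ ∘ a₁) c₁ i₁ _ c0
    rw [q₁] at a
    have e0 : (0 : ℝ) ≤ R.ord (algebraMap E F w.t) := Int.cast_nonneg p.e_pos.le
    have := ((a R (R.ord (algebraMap E F w.t) * pb (φ : L →+* E) π w) (fun _ => by
      simpa [t.ord] using mul_nonneg e0 (pb_nonneg _ (fun u => (hπ u).1) w)) fun b => by
        have := mul_le_mul_of_nonneg_left ((okp ok hπ w).2 (q b)) e0
        rw [p.ord (φ (z b)), Int.cast_mul]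
        exact (neg_le_neg this).trans_eq (by rw [mul_neg, neg_neg]; rfl)).resolve_left
      fun j => p.not_trv j.2.1).resolve_left o1
    have o3 := Int.cast_le (R := ℝ).2 o2
    rw [p.ord, Int.cast_mul] at o3
    rw [p.pb, ef] at u
    rw [p.pb, t.pb] at this
    simp only [ld, dsc, Pi.add_apply, Pi.sub_apply, Pi.one_apply, hw _ g0, hw _ h₁,
      Function.comp_apply] at u this o3 ⊢
    refine pos_of_mul_pos_left (b := _) ?_ e0
    linarith
  · obtain ⟨R, p, t, u, o⟩ := tens h hL hE (add_comm (n + 1) _ ▸ hF) Fintype.card_option (by simp)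
      hz.ind hx v
    obtain ⟨o1, o2⟩ := o _ (c₁ ∘ a₂) e₂ i₂ _ c0
    simp only [mul_comm (algebraMap L F _)] at o1 o2
    rw [q₁.trans q₂] at a
    have e0 : (0 : ℝ) ≤ R.ord (algebraMap L F v.t) := Int.cast_nonneg p.e_pos.le
    have := ((a R (R.ord (algebraMap L F v.t) * π v) (fun b => by
        have := mul_le_mul_of_nonneg_left ((hπ v).2 (q b)) e0
        rw [p.ord (z b), Int.cast_mul]
        exact (neg_le_neg this).trans_eq (by rw [mul_neg, neg_neg]; rfl)) fun _ => by
      simpa [t.ord] using mul_nonneg e0 (hπ v).1).resolve_left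
      fun j => p.not_trv j.2.2).resolve_left o1
    have o3 := Int.cast_le (R := ℝ).2 o2
    rw [p.ord, Int.cast_mul] at o3
    rw [p.pb, kq_congr hF (by simp) (Equiv.sumComm _ _)
      (y := Sum.elim (algebraMap E F ∘ x) (algebraMap L F ∘ z)) (by rintro (_ | _) <;> rfl)] at u
    rw [p.pb, t.pb, h₃.1] at this
    simp only [Pi.add_apply, Pi.one_apply, Function.comp_apply] at u this o3 ⊢
    refine pos_of_mul_pos_left (b := _) ?_ e0
    linarith

end Vale.Agent.P283B.Rd
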